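import Vale.Agent.P271.K3.Seq
import Vale.Agent.P271.H207.K3Pt
import Vale.Agent.P271.H604.Upper
import Vale.Agent.P271.H604.Slope
import Vale.Agent.P271.H604.OfDat
import Vale.Agent.P271.H84.OfSat

/-!
# P271 / K3OUT : the middle interface (helper231, with helper207, helper604, helper783, helper84)

`K3.out` : `E` the exponent sets at all points of the cone different from the vertex, `z` such a
point, `hv` a valuation on the homogeneous elements with centre `P = {v > 0}` contained in the prime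
of `z`, of threshold `≤ c` at all points of `Z(P)` near `z` (CEN), `d ≥ 1` the number of
coordinates at a general point (`GenPt`).  There are a basis `b` of `C.A m` adapted to `v` and
integers `e i ≤ Em` such that for all `α ≥ α₁` the filtration with weights `α v (b i) + e i` on `b`
has slope `≤ α c + d` at `z`, and all counting inequalities hold for the `e i`.
-/

set_option linter.all false

open Finset Module Filter Topology

namespace Vale.Agent.P271.K3

open Finsupp Vale.Agent.P271.Filt Vale.Agent.P271.Filt.Wt Vale.Agent.P271.Exp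
  Vale.Agent.P271.Sch Vale.Agent.P271.Inst Vale.Agent.P271.H84 Vale.Agent.P271.H207
  Vale.Agent.P271.Chain
open Vale.Agent.P271.Drop (hilb)

section dom

variable {R : Type*} [CommRing R] [Algebra ℂ R] {Hm : R → Prop} {X : Type*} [TopologicalSpace X]
  (E : ExpSys R Hm X)

/-- A filtration of finite slope has weight zero on the elements that do not vanish. -/
theorem dom_of_vsl {x : X} {V : Submodule ℂ R} (hV : ∀ f ∈ V, Hm f) {F : Wt ℂ V} {c : ℝ}
    (hF : ∀ f, f ≠ 0 → 0 ≤ F.w f) (h : VSl (E.P x) V.subtype F.w c) : Dom (E.Hz x V) F := by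
  refine ⟨hF, fun f hf => ?_⟩
  have hne : E.ev x (f : R) ≠ 0 := fun h0 => hf (E.mem_Hz.2 h0)
  have hf0 : f ≠ 0 := by
    rintro rfl
    exact hne (by simp)
  have hmem : ∀ K : ℝ, single (f : R) K ∈ E.P x := by
    intro K
    have h1 := E.unit x (f : R) (hV _ f.2) hne 0 K (E.isExp x).zero_mem
    rwa [zero_add] at h1
  have hle : ∀ K : ℝ, 0 ≤ K → K * F.w f ≤ c := by
    intro K hK
    have h1 := h (single f K) (single_nonneg' hK) (by
      rw [Finsupp.mapDomain_single]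
      exact hmem K)
    rwa [dot_single] at h1
  refine le_antisymm ?_ (hF f hf0)
  by_contra hlt
  push Not at hlt
  have h1 := hle (|c| / F.w f + 1) (by positivity)
  have h2 : (|c| / F.w f + 1) * F.w f = |c| + F.w f := by
    field_simp
  rw [h2] at h1
  have := le_abs_self c
  linarith

end dom

variable {n : ℕ} {C : GCone n}

/-- The general point package: outside the zero set of `h₀ ∉ P` every point of `Z(P)` carries the
data `PtData`, with homogeneous local parameters, and the monomials of exponents `≤ 1` are leading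
monomials in degree `r₁`. -/
def GenPt (C : GCone n) {w : C.R → ℝ} (h : RVal w) (S : Set ℝ) (d r₁ : ℕ) : Prop :=
  ∃ h₀ : C.R, h₀ ∉ h.P ∧ ∀ χ : C.Pt, GCone.NV χ → h.P ≤ RingHom.ker χ → χ h₀ ≠ 0 →
    ∃ D : PtData C.A h χ S d, (∀ j, ∃ i, D.X j ∈ C.A i) ∧
      ∀ ε : Fin d → ℕ, (∀ j, ε j ≤ 1) → ∃ g : C.A r₁, IsLead1 (D.τ r₁ g) ε

theorem hmOf_of_mem {i : ℕ} {f : C.R} (hf : f ∈ C.A i) : HmOf (HM C) f := by
  by_cases h0 : f = 0
  · exact Or.inr h0
  · exact Or.inl (mem_HM.2 ⟨h0, i, hf⟩)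

/-- A constant `α₁` which works for all values of the valuation above the values on `C.A m`. -/
theorem exists_alpha_all {w : C.R → ℝ} (h : RVal w) (m Em : ℕ) [FiniteDimensional ℂ (C.A m)] :
    ∃ α₁ : ℝ, 0 < α₁ ∧ ∀ x ∈ C.A m, ∀ y : C.R, x ≠ 0 → y ≠ 0 → w x < w y → ∀ α, α₁ ≤ α →
      (Em : ℝ) < α * (w y - w x) := by
  obtain ⟨τ, hτ⟩ := ((h.wt (C.A m)).finite_values).bddAbove
  obtain ⟨δ, hδ, hgap⟩ := h.exists_gap τ
  refine ⟨(Em + 1) / δ, by positivity, fun x hx y hx0 hy0 hlt α hα => ?_⟩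
  have h1 : w x ≤ τ := hτ ⟨⟨x, hx⟩, fun h0 => hx0 (congrArg Subtype.val h0), rfl⟩
  have h2 := hgap x y hx0 hy0 h1 hlt
  have h3 : (Em : ℝ) + 1 ≤ α * δ := by rwa [div_le_iff₀ hδ] at hα
  have h4 : 0 ≤ α := le_trans (by positivity) hα
  have h5 : α * δ ≤ α * (w y - w x) := mul_le_mul_of_nonneg_left (by linarith) h4
  linarith

/-- **K3OUT.** -/
theorem out (E : ExpSys C.R (HmOf (HM C)) {φ : C.Pt // GCone.NV φ})
    (hev : ∀ x, E.ev x = x.1) [∀ M, FiniteDimensional ℂ (C.A M)]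
    {z : C.Pt} (hz : GCone.NV z) {v : HM C → ℝ} (hv : HVal C.A (vR v)) {c : ℝ}
    (hzP : hv.rval.P ≤ RingHom.ker z)
    (hcen : ∀ᶠ χ in 𝓝 z, ∀ hχ : GCone.NV χ, hv.rval.P ≤ RingHom.ker χ →
      SlopeLe (E.P ⟨χ, hχ⟩) (HmOf (HM C)) hv.ext c)
    {d : ℕ} (hd : 0 < d) {m Em : ℕ} (hE : finrank ℂ (C.A m) ≤ Em) {S : Set ℝ}
    (hS : ∀ M ≤ m, ∀ x ∈ C.A M, x ≠ 0 → hv.ext x ∈ S) {r₁ : ℕ}
    (hgen : GenPt C hv.rval S d r₁) :
    ∃ (b : Basis (Fin (finrank ℂ (C.A m))) ℂ (C.A m)) (e : Fin (finrank ℂ (C.A m)) → ℕ) (α₁ : ℝ),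
      0 < α₁ ∧ (hv.rval.wt (C.A m)).Adapted b ∧ (∀ i, e i ≤ Em) ∧
      (∀ α, α₁ ≤ α → Antitone fun i => α * hv.ext (b i) + e i) ∧
      (∀ α, α₁ ≤ α → VSl (E.P ⟨z, hz⟩) (C.A m).subtype
        (ofBasis b fun i => α * hv.ext (b i) + e i).w (α * c + d)) ∧
      (∀ α, α₁ ≤ α → Dom (E.Hz ⟨z, hz⟩ (C.A m)) (ofBasis b fun i => α * hv.ext (b i) + e i) ∧
        E.a ⟨z, hz⟩ (C.A m) (ofBasis b fun i => α * hv.ext (b i) + e i) ≤ α * c + d) ∧
      ∀ (t : ℝ) (r₀ j : ℕ), j * (r₀ + r₁) ≤ m →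
        (d : ℝ) * ((d.factorial : ℝ) ^ ((1 : ℝ) / d)) *
          ((hilb C.A hv.rval.P r₀ : ℝ) ^ ((1 : ℝ) / d)) *
          ∑ i ∈ range j, codim C.A hv.rval t (m - (i + 1) * (r₀ + r₁)) -
          (d + 1) * codim C.A hv.rval t m ≤
        ∑ i, if hv.ext (b i) < t then (e i : ℝ) else 0 := by
  classical
  obtain ⟨h₀, hh₀, hpt⟩ := hgen
  obtain ⟨x, hx, hxk⟩ := exists_seq_cone hz hzP hh₀ hcen
  choose D hDX hcube using fun k => hpt (x k) (hxk k).2.2.1 (hxk k).1 (hxk k).2.1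
  obtain ⟨α₁, hα₁, hgap⟩ := exists_alpha_all (C := C) hv.rval m Em
  obtain ⟨φ, b, b', e, hφ, hb', hb, hw, heE, hanti, hdec, hlim, hcount⟩ :=
    exists_K3 D hd hE hS hcube hα₁ (fun x hx y _ hx0 hy0 hlt α hα => hgap x hx y hx0 hy0 hlt α hα)
  have hlam0 : ∀ i, 0 ≤ hv.ext (b' i) := fun i =>
    hv.rval.nonneg _ fun h0 => b'.ne_zero i (Subtype.ext h0)
  have hVm : ∀ f ∈ C.A m, HmOf (HM C) f := fun f hf => hmOf_of_mem hf
  -- the upper bound at the general points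
  have hup : ∀ k α, α₁ ≤ α → VSl (E.P ⟨x (φ k), (hxk (φ k)).2.2.1⟩) (C.A m).subtype
      (ofBasis (b k) fun i => α * hv.ext (b' i) + e i).w (α * c + d) := by
    intro k α hα
    refine E.upper (𝒜 := C.A) (fun i f hf => hmOf_of_mem hf)
      (fun f _ hf0 => hv.rval.nonneg f hf0)
      ((hxk (φ k)).2.2.2 (hxk (φ k)).2.2.1 (hxk (φ k)).1) (hDX (φ k)) (fun j => ?_)
      (hα₁.le.trans hα) le_rfl (b k) (fun i => hv.ext (b' i)) hlam0 e
      (fun i => hv.rval.b (hv.ext (b' i))) (fun i => hv.rval.bgt (hv.ext (b' i)))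
      (fun i f hf N hN => ?_) (fun i f hf N hN => ?_) (fun i => ?_)
    · rw [hev]
      exact (D (φ k)).X_zero j
    · rw [hv.ext_homogeneous (cp_mem C.A f N) hN]
      exact hv.mem_b_iff.1 hf N hN
    · have h1 : hv.ext (b' i) < hv.ext (cp C.A f N) := by
        rw [hv.ext_homogeneous (cp_mem C.A f N) hN]
        exact hv.mem_bgt_iff.1 hf N hN
      have h2 := hgap (b' i) (b' i).2 (cp C.A f N) (fun h0 => b'.ne_zero i (Subtype.ext h0)) hN
        h1 α hα
      have h3 : (e i : ℝ) ≤ Em := by exact_mod_cast heE i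
      nlinarith
    · obtain ⟨u, hu, hmem⟩ := hdec k i
      exact ⟨u, by rw [hev]; exact hu, hmem⟩
  -- the limit
  have hxt : Tendsto (fun k => (⟨x (φ k), (hxk (φ k)).2.2.1⟩ : {φ : C.Pt // GCone.NV φ})) atTop
      (𝓝 ⟨z, hz⟩) := by
    rw [tendsto_subtype_rng]
    exact hx.comp hφ.tendsto_atTop
  have hvsl : ∀ α, α₁ ≤ α → VSl (E.P ⟨z, hz⟩) (C.A m).subtype
      (ofBasis b' fun i => α * hv.ext (b' i) + e i).w (α * c + d) := by
    intro α hα
    refine E.vsl_limit hVm (fun k => ofBasis (b k) fun i => α * hv.ext (b' i) + e i)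
      (fun k => b k) b' (fun i => α * hv.ext (b' i) + e i) (fun i => ?_)
      (fun k => ofBasis_adapted _ _) (fun k i => ofBasis_basis _ _ i) hlim hxt
      (Eventually.frequently (Eventually.of_forall fun k => hup k α hα))
    have := mul_nonneg (hα₁.le.trans hα) (hlam0 i)
    positivity
  have hnn : ∀ α, α₁ ≤ α → ∀ f : C.A m, f ≠ 0 →
      0 ≤ (ofBasis b' fun i => α * hv.ext (b' i) + e i).w f := by
    intro α hα f hf
    refine (le_ofBasis_iff b' _ hf).2 fun i _ => ?_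
    have := mul_nonneg (hα₁.le.trans hα) (hlam0 i)
    positivity
  refine ⟨b', e, α₁, hα₁, hb', heE, hanti, hvsl, fun α hα => ?_, hcount⟩
  have hdom := dom_of_vsl E hVm (hnn α hα) (hvsl α hα)
  exact ⟨hdom, (E.a_le_iff hVm hdom).2 (hvsl α hα)⟩

end Vale.Agent.P271.K3
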