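import Vale.Agent.P271.K3.Main

/-!
# P271 / K3OUT : `K3Fin`, the form used by the field `k3w` (helper231; statement: helper507)
-/

set_option linter.all false

open Finset Module Filter Topology

namespace Vale.Agent.P271.K3

open Finsupp Vale.Agent.P271.Filt Vale.Agent.P271.Filt.Wt Vale.Agent.P271.Exp
  Vale.Agent.P271.Sch Vale.Agent.P271.Inst Vale.Agent.P271.H84 Vale.Agent.P271.H207
  Vale.Agent.P271.Chain Vale.Agent.P271.Zorn Vale.Agent.P271.Main Vale.Agent.P271.Deg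
  Vale.Agent.P271.H741
open Vale.Agent.P271.Drop (hilb)

variable {n : ℕ} {C : GCone n} [∀ M, FiniteDimensional ℂ (C.A M)]

/-- The output of K3 on the Veronese levels, for a fixed point `z` and Veronese index `m1`. -/
def K3Fin (S : CSys C) (z : NVPt C) (m1 r1 : ℕ) : Prop :=
  ∀ (T : ℕ) (v : HM C → ℝ) (c : ℝ), (S.D z).Sat v c → (∀ f : HM C, z.1 (f : C.R) ≠ 0 → v f = 0) →
    ∀ hv : HVal C.A (vR v), hv.rval.P ≠ pz z.1 → ∀ d : ℕ, 1 ≤ d → d ≤ n →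
    (∃ D, 1 ≤ D ∧ TwoSided d D (hilb (VA C m1) hv.rval.P)) →
    ∃ (b : Basis (Fin (finrank ℂ (VA C m1 T))) ℂ (VA C m1 T))
      (e : Fin (finrank ℂ (VA C m1 T)) → ℝ) (α₁ : ℝ),
      (hv.rval.wt (VA C m1 T)).Adapted b ∧ (∀ i, 0 ≤ e i) ∧
      (∀ α, α₁ ≤ α → Dom (Hz C z.1 m1 T) (ofBasis b fun i => α * hv.ext (b i) + e i) ∧
        S.a z m1 T (ofBasis b fun i => α * hv.ext (b i) + e i) ≤ α * c + d) ∧
      ∀ (t : ℝ) (s k : ℕ), k * (s + r1) ≤ T →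
        (d : ℝ) * ((d.factorial : ℝ) ^ ((1 : ℝ) / d)) *
            ((hilb (VA C m1) hv.rval.P s : ℝ) ^ ((1 : ℝ) / d)) *
            ∑ j ∈ range k, ((finrank ℂ (VA C m1 (T - (j + 1) * (s + r1))) : ℝ) -
              finrank ℂ ((hv.rval.wt (VA C m1 (T - (j + 1) * (s + r1)))).sub t)) -
          (d + 1) * ((finrank ℂ (VA C m1 T) : ℝ) -
            finrank ℂ ((hv.rval.wt (VA C m1 T)).sub t)) ≤
        ∑ i, if hv.ext (b i) < t then e i else 0

/-- **K3OUT** on the Veronese levels. -/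
theorem k3fin (hG : GlobGen) (hn : 1 ≤ n) (S : CSys C) {m1 : ℕ} (hm1 : 1 ≤ m1) :
    ∃ r1 : ℕ, ∀ z : NVPt C, K3Fin S z m1 r1 := by
  classical
  obtain ⟨r1, hr⟩ := k3out_glob hG hn S
  refine ⟨r1, fun z T v c hsat h0 hv _ d hd hdn hTS => ?_⟩
  obtain ⟨D, hD, hTS⟩ := hTS
  obtain ⟨b, e, α₁, hα₁, hb, he, hanti, hV, hDom, hcount⟩ :=
    hr z v c hsat hv h0 d hd hdn ⟨m1, hm1, D, hD, hTS⟩ (m1 * T) _ le_rfl (m1 * r1)
      (Nat.le_mul_of_pos_left r1 hm1)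
  refine ⟨b, fun i => (e i : ℝ), α₁, hb, fun i => Nat.cast_nonneg _, fun α hα => ?_,
    fun t s k hk => ?_⟩
  · obtain ⟨h1, h2⟩ := hDom α hα
    rw [S.Hz_eq] at h1
    exact ⟨h1, h2⟩
  · have h1 := hcount t (m1 * s) k (by
      calc k * (m1 * s + m1 * r1) = m1 * (k * (s + r1)) := by ring
        _ ≤ m1 * T := Nat.mul_le_mul_left m1 hk)
    have h2 : ∀ j : ℕ, m1 * T - (j + 1) * (m1 * s + m1 * r1) = m1 * (T - (j + 1) * (s + r1)) := by
      intro j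
      rw [Nat.mul_sub]
      congr 1
      ring
    simp only [h2] at h1
    exact h1

end Vale.Agent.P271.K3
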