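import Vale.Agent.P271.H112.ToPtData
import Vale.Agent.P271.K3.Out

/-!
# P271 / K3OUT : the general point package `GenPt` in all degrees `r ≥ r₁` (helper231)
-/

set_option linter.all false

open Finset

namespace Vale.Agent.P271.K3

open MvPowerSeries Vale.Agent.P271.F507 Vale.Agent.P271.H207 Vale.Agent.P271.H84
  Vale.Agent.P271.Gen Vale.Agent.P271.H70 Vale.Agent.P271.Drop Vale.Agent.P271.Deg
  Vale.Agent.P271.H112 Vale.Agent.P271.Sch

/-- **The general point package at the centres of the valuations of a cone.** `r₁` depends only on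
the cone. -/
theorem exists_genPt {n : ℕ} (C : GCone n) (D : ℕ) :
    ∃ r₁ : ℕ, ∀ (v : C.R → ℝ) (hv : HVal C.A v) (z : C.Pt), GCone.NV z →
      hv.rval.P ≤ RingHom.ker z → ∀ d : ℕ, d ≤ D →
      (∃ m₁ ≥ 1, ∃ D' ≥ 1, TwoSided d D' (fun t => hilb C.A hv.rval.P (m₁ * t))) →
      ∀ (s : Finset ℝ) (r : ℕ), r₁ ≤ r → GenPt C hv.rval (s : Set ℝ) d r := by
  obtain ⟨r₁, hr⟩ := cone_lead_hom C D
  refine ⟨r₁, fun v hv z hz hzP d hd hTS s r hrr => ?_⟩
  haveI := C.finiteType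
  have hPprime : hv.rval.P.IsPrime := hv.rval.P_isPrime
  obtain ⟨M0, e, he, e', he', h1, h2⟩ := exists_pair z hz
  have heP : e ∉ hv.rval.P := fun h => h1 (hzP h)
  have heP' : e' ∉ hv.rval.P := fun h => h2 (hzP h)
  obtain ⟨m₁, hm₁, D', hD', hTS⟩ := hTS
  obtain ⟨k, hk, f, hf, hfz⟩ := hz
  have htr : Algebra.trdeg ℂ (C.R ⧸ hv.rval.P) = ((d + 1 : ℕ) : Cardinal) :=
    trdeg_of_twoSided C.A C.zero hv.P_homogeneous ⟨k, hk, f, hf, fun h => hfz (hzP h)⟩ hm₁ hD' hTS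
  obtain ⟨N, g, rr, hg, hgP, H⟩ := exists_general_point_hom' (k := ℂ) C.A hv.rval.P he he' heP heP'
    (d := d) (fun P' hP' hee hPP => by
      haveI := hP'
      exact exists_noether_slice C.A hv.rval.P P' hv.P_homogeneous he he' heP heP' hee hPP htr)
    s (fun a => hv.rval.b a) (fun a => hv.rval.bgt a) (fun a _ => hv.b_homogeneous a)
    (fun a _ => hv.rval.bgt_le_b a) (fun a _ p hp x hx => hv.rval.P_mul_b hp hx)
    (fun a _ g hg x _ hgx => hv.rval.mem_bgt_of_mul hg hgx)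
  refine ⟨g, hgP, fun φ _ hφP hφg => ?_⟩
  obtain ⟨X, τ, θ, hpt, hθ⟩ := H φ (fun p hp => hφP hp) hφg
  have h0 : constantCoeff (τ e') ≠ 0 := by
    rw [hpt.const _ e' he']
    exact mul_ne_zero (pow_ne_zero _ (div_ne_zero hpt.φe hpt.φe')) hpt.φe'
  obtain ⟨m, hm⟩ := hpt.X_mem
  obtain ⟨L, hL⟩ := hpt.tau_X
  refine ⟨ptDataOf C.A hv.rval hpt s rr θ hθ, fun j => ⟨m, hm j⟩, fun ε hε => ?_⟩
  obtain ⟨x, hx, hlead⟩ := hr d τ M0 e e' he he' h0 hpt.tau_e X (fun j => ⟨m, hm j⟩)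
    (fun j => ⟨L, hL j⟩) r hrr ε (le_trans (deg_le_of_le_one hε) hd)
  exact ⟨⟨x, hx⟩, hlead⟩

end Vale.Agent.P271.K3
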