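import Vale.Agent.P271.H604.Sys
import Vale.Agent.P271.Filt.Limit
import Vale.Agent.P271.Filt.Lex

/-!
# P271 / K3OUT, limit half (helper231): from general points `z' → z` of the centre to the point `z`

`AtPt E x V F Em α₁ c d B`: what the counting lemma and the upper bound give at one general point
`x` of the centre: a refinement `h` (orders of vanishing, truncated at `Em`) of the filtration `F`
of `V`, such that for every basis adapted to the lexicographic filtration `α₁ F + h` the slopes of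
`α F + h` at `x` are at most `α c + d` for all `α ≥ α₁`, and the sums of the orders over the jumps
`< t` are at least `β` for all `(t, β) ∈ B`.
-/

namespace Vale.Agent.P271.K3

open Finsupp Module Filter Topology Vale.Agent.P271.Filt Vale.Agent.P271.Filt.Wt
  Vale.Agent.P271.Exp

section

variable {R : Type*} [CommRing R] [Algebra ℂ R] {Hm : R → Prop} {X : Type*} [TopologicalSpace X]

/-- The output at one general point. -/
def AtPt (E : ExpSys R Hm X) (x : X) (V : Submodule ℂ R) (F : Wt ℂ V) (Em : ℕ) (α₁ c d : ℝ)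
    (B : Set (ℝ × ℝ)) : Prop :=
  ∃ (G : Wt ℂ V) (h : V → ℕ), (∀ v, v ≠ 0 → G.w v = α₁ * F.w v + h v) ∧ (∀ v, h v ≤ Em) ∧
    LexStrict F (fun v => (h v : ℝ)) α₁ ∧
    ∀ b : Basis (Fin (finrank ℂ V)) ℂ V, G.Adapted b →
      (∀ α, α₁ ≤ α →
        VSl (E.P x) V.subtype (ofBasis b fun i => α * F.w (b i) + h (b i)).w (α * c + d)) ∧
      ∀ p ∈ B, p.2 ≤ ∑ i with F.w (b i) < p.1, (h (b i) : ℝ)

/-- A basis adapted to the lexicographic filtration is adapted to `F`. -/
theorem adapted_of_lex' {K V : Type*} [Field K] [AddCommGroup V] [Module K V] {F G : Wt K V}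
    {h : V → ℝ} {α : ℝ} (hG : ∀ v, v ≠ 0 → G.w v = α * F.w v + h v) (hs : LexStrict F h α)
    {ι : Type*} {b : Basis ι K V} (hb : G.Adapted b) : F.Adapted b := by
  intro x i hi
  have hx : x ≠ 0 := by rintro rfl; simp at hi
  by_contra hlt
  push Not at hlt
  have h1 := hs (b i) x (b.ne_zero i) hx hlt
  have h2 := hb x i hi
  rw [hG x hx, hG _ (b.ne_zero i)] at h2
  linarith

/-- **The limit half of (K3).** -/
theorem exists_at_limit (E : ExpSys R Hm X) {V : Submodule ℂ R} [FiniteDimensional ℂ V]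
    (hV : ∀ v ∈ V, Hm v) {F : Wt ℂ V} (hF : ∀ v, v ≠ 0 → 0 ≤ F.w v) {z : X} {x : ℕ → X}
    (hx : Tendsto x atTop (𝓝 z)) {Em : ℕ} {α₁ c d : ℝ} (hα₁ : 0 ≤ α₁) {B : Set (ℝ × ℝ)}
    (h : ∀ n, AtPt E (x n) V F Em α₁ c d B) :
    ∃ (b : Basis (Fin (finrank ℂ V)) ℂ V) (e : Fin (finrank ℂ V) → ℕ), F.Adapted b ∧
      Antitone (fun i => α₁ * F.w (b i) + e i) ∧ (∀ i, e i ≤ Em) ∧
      (∀ α, α₁ ≤ α →
        VSl (E.P z) V.subtype (ofBasis b fun i => α * F.w (b i) + e i).w (α * c + d)) ∧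
      ∀ p ∈ B, p.2 ≤ ∑ i with F.w (b i) < p.1, (e i : ℝ) := by
  classical
  choose G ho hG hoE hs hb using h
  -- the weights take finitely many values
  set S : Finset ℝ := (F.finite_values.toFinset ×ˢ Finset.range (Em + 1)).image
    (fun p => α₁ * p.1 + p.2) with hS
  have hmem : ∀ n (v : V), v ≠ 0 → (G n).w v ∈ S := by
    intro n v hv
    rw [hG n v hv, hS, Finset.mem_image]
    refine ⟨(F.w v, ho n v), ?_, rfl⟩
    rw [Finset.mem_product, Set.Finite.mem_toFinset, Finset.mem_range]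
    exact ⟨⟨v, hv, rfl⟩, Nat.lt_succ_of_le (hoE n v)⟩
  obtain ⟨φ, b, b', lam, hφ, hanti, hadp, hw, hlim, -, -, -, -⟩ :=
    exists_limit_general G S hmem
  have hadF : ∀ n, F.Adapted (b n) := fun n =>
    adapted_of_lex' (hG (φ n)) (hs (φ n)) (hadp n)
  -- the pairs (weight, order) take finitely many values
  have hfin : Set.Finite {q : Fin (finrank ℂ V) → ℝ × ℕ | ∀ i,
      q i ∈ ((F.finite_values.toFinset ×ˢ Finset.range (Em + 1) : Finset (ℝ × ℕ)) : Set (ℝ × ℕ))} := by
    have := Set.Finite.pi (fun _ : Fin (finrank ℂ V) =>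
      (F.finite_values.toFinset ×ˢ Finset.range (Em + 1) : Finset (ℝ × ℕ)).finite_toSet)
    refine this.subset fun q hq => ?_
    rw [Set.mem_univ_pi]
    exact hq
  let L : ℕ → Fin (finrank ℂ V) → ℝ × ℕ := fun n i => (F.w (b n i), ho (φ n) (b n i))
  have hL : ∀ n, L n ∈ {q : Fin (finrank ℂ V) → ℝ × ℕ | ∀ i,
      q i ∈ ((F.finite_values.toFinset ×ˢ Finset.range (Em + 1) : Finset (ℝ × ℕ)) : Set (ℝ × ℕ))} := by
    intro n i
    rw [Finset.mem_coe, Finset.mem_product, Set.Finite.mem_toFinset, Finset.mem_range]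
    exact ⟨⟨b n i, (b n).ne_zero i, rfl⟩, Nat.lt_succ_of_le (hoE _ _)⟩
  obtain ⟨q, hq⟩ : ∃ q : Fin (finrank ℂ V) → ℝ × ℕ, (L ⁻¹' {q}).Infinite := by
    by_contra hcon
    push Not at hcon
    have h1 : (Set.univ : Set ℕ) ⊆ ⋃ q ∈ hfin.toFinset, L ⁻¹' {q} := by
      intro n _
      rw [Set.mem_iUnion₂]
      exact ⟨L n, by rw [Set.Finite.mem_toFinset]; exact hL n, rfl⟩
    have h2 : (⋃ q ∈ hfin.toFinset, L ⁻¹' {q}).Finite :=
      Set.Finite.biUnion (Finset.finite_toSet _) fun q _ => hcon q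
    exact Set.infinite_univ (h2.subset h1)
  let ψ : ℕ → ℕ := Nat.nth (fun n => L n = q)
  have hψ : StrictMono ψ := Nat.nth_strictMono hq
  have hψq : ∀ n, L (ψ n) = q := fun n => Nat.nth_mem_of_infinite hq n
  have hq1 : ∀ n i, F.w (b (ψ n) i) = (q i).1 := fun n i => by rw [← hψq n]
  have hq2 : ∀ n i, ho (φ (ψ n)) (b (ψ n) i) = (q i).2 := fun n i => by rw [← hψq n]
  have hlimψ : ∀ (f : V →ₗ[ℂ] ℂ) (i), Tendsto (fun n => f (b (ψ n) i)) atTop (𝓝 (f (b' i))) :=
    fun f i => (hlim f i).comp hψ.tendsto_atTop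
  -- the limit basis is adapted to `F` with the same weights
  have hge : ∀ i ∈ Finset.univ, (q i).1 ≤ F.w (b' i) := by
    intro i _
    have hmem' : b' i ∈ F.sub (q i).1 := by
      by_contra hnot
      obtain ⟨f, hf1, hf2⟩ := Submodule.exists_le_ker_of_notMem hnot
      have h1 := hlimψ f i
      have h2 : (fun n => f (b (ψ n) i)) = fun _ => (0 : ℂ) := by
        funext n
        have h3 : b (ψ n) i ∈ F.sub (q i).1 := fun _ => (hq1 n i).ge
        exact LinearMap.mem_ker.1 (hf2 h3)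
      rw [h2] at h1
      exact hf1 (tendsto_nhds_unique h1 tendsto_const_nhds)
    exact hmem' (b'.ne_zero i)
  have hT : F.T = ∑ i, (q i).1 := by
    rw [← (hadF (ψ 0)).sum_eq]
    exact Finset.sum_congr rfl fun i _ => hq1 0 i
  have hadb : F.Adapted b' := by
    apply adapted_of_T_le
    rw [hT]
    exact Finset.sum_le_sum hge
  have heq : ∀ i, (q i).1 = F.w (b' i) := by
    intro i
    refine (Finset.sum_eq_sum_iff_of_le hge).1 ?_ i (Finset.mem_univ i)
    rw [← hT, hadb.sum_eq]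
  refine ⟨b', fun i => (q i).2, hadb, ?_, ?_, ?_, ?_⟩
  · intro i j hij
    have h1 := hanti hij
    have h2 : ∀ k, lam k = α₁ * F.w (b' k) + (q k).2 := by
      intro k
      rw [← hw (ψ 0) k, hG _ _ ((b (ψ 0)).ne_zero k), hq1, hq2, heq]
    simp only
    rw [← h2 i, ← h2 j]
    exact h1
  · intro i
    simp only
    rw [← hq2 0 i]
    exact hoE _ _
  · intro α hα
    have hα0 : 0 ≤ α := hα₁.trans hα
    have key := E.vsl_limit hV (fun n => ofBasis (b (ψ n)) fun i => α * F.w (b' i) + (q i).2)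
      (fun n => b (ψ n)) b' (fun i => α * F.w (b' i) + (q i).2) (fun i => by
        have := hF _ (b'.ne_zero i)
        positivity) (fun n => ofBasis_adapted _ _) (fun n i => ofBasis_basis _ _ i) hlimψ
      (x := fun n => x (φ (ψ n))) (x' := z)
      (hx.comp (hφ.comp hψ).tendsto_atTop) (c := α * c + d) ?_
    · exact key
    · refine Eventually.frequently (Eventually.of_forall fun n => ?_)
      have h1 := (hb (φ (ψ n)) (b (ψ n)) (hadp (ψ n))).1 α hα
      have h2 : (fun i => α * F.w (b (ψ n) i) + (ho (φ (ψ n)) (b (ψ n) i) : ℝ)) =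
          fun i => α * F.w (b' i) + ((q i).2 : ℝ) := by
        funext i
        rw [hq1, hq2, heq]
      rw [h2] at h1
      exact h1
  · intro p hp
    have h1 := (hb (φ (ψ 0)) (b (ψ 0)) (hadp (ψ 0))).2 p hp
    have h2 : ∑ i with F.w (b (ψ 0) i) < p.1, (ho (φ (ψ 0)) (b (ψ 0) i) : ℝ) =
        ∑ i with F.w (b' i) < p.1, ((q i).2 : ℝ) := by
      refine Finset.sum_congr ?_ fun i _ => by rw [hq2]
      ext i
      simp only [Finset.mem_filter, Finset.mem_univ, true_and]
      rw [hq1, heq]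
    rw [h2] at h1
    exact h1

end

end Vale.Agent.P271.K3
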