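import Vale.Agent.P271.K3.GenPt
import Vale.Agent.P271.Main.CSys
import Vale.Agent.P271.H244.Near

/-!
# P271 / K3OUT : final form for the exponent sets `CSys` of a cone (helper231)

`k3out` : `v` a saturated weight function (valuation) of threshold `c` at `z`, `d` the growth
exponent of `R / P`, `P = {v > 0}`; the threshold of `v` at the points of `Z(P)` near `z` is `≤ c`
(CEN).  Then on every graded piece `C.A m` there are a basis `b` adapted to `v` and integers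
`0 ≤ e i ≤ Em` such that for all `α ≥ α₁` the filtration with weights `α v (b i) + e i` has slope
`≤ α c + d` at `z`, with all counting inequalities, for all `r₁ ≥ r₁₀` (`r₁₀` depends only on the
cone).
`k3out_glob` : the same, CEN being deduced from the global generation theorem `GlobGen`.
-/

set_option linter.all false

open Finset Module Filter Topology

namespace Vale.Agent.P271.K3

open Finsupp Vale.Agent.P271.Filt Vale.Agent.P271.Filt.Wt Vale.Agent.P271.Exp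
  Vale.Agent.P271.Sch Vale.Agent.P271.Inst Vale.Agent.P271.H84 Vale.Agent.P271.H207
  Vale.Agent.P271.Chain Vale.Agent.P271.Zorn Vale.Agent.P271.Main Vale.Agent.P271.Deg
  Vale.Agent.P271.H741
open Vale.Agent.P271.Drop (hilb)

variable {n : ℕ} {C : GCone n}

/-- The threshold of a valuation in terms of `HM C`, in terms of `SlopeLe`. -/
theorem slopeLe_of_le {E : Set (C.R →₀ ℝ)} {D : Dat (HM C)} (hP : E = extP (HM C) D.P)
    {v : HM C → ℝ} (hv : HVal C.A (vR v)) {c : ℝ} (h : D.Le v c) :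
    SlopeLe E (HmOf (HM C)) hv.ext c := by
  classical
  intro k hk h0 _
  rw [hP, mem_extP_iff] at hk
  obtain ⟨k', hk', rfl⟩ := hk
  have hinj : Function.Injective (fun f : HM C => (f : C.R)) := Subtype.val_injective
  have h1 : ∀ f, 0 ≤ k' f := by
    intro f
    have h2 := h0 (f : C.R)
    rwa [show (k'.mapDomain (fun f : HM C => (f : C.R))) (f : C.R) = k' f from
      Finsupp.mapDomain_apply hinj k' f] at h2
  rw [dot_mapDomain]
  have h2 := h k' hk' h1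
  refine le_trans (le_of_eq ?_) h2
  unfold dot
  rw [pair_eq_sum]
  refine Finsupp.sum_congr fun f _ => ?_
  show k' f * hv.ext (f : C.R) = k' f * v f
  rw [ext_coe hv]

variable [∀ M, FiniteDimensional ℂ (C.A M)]

/-- **K3OUT.** -/
theorem k3out (S : CSys C) : ∃ r₁₀ : ℕ, ∀ (z : NVPt C) (v : HM C → ℝ) (hv : HVal C.A (vR v)) (c : ℝ),
    (∀ f : HM C, z.1 (f : C.R) ≠ 0 → v f = 0) →
    (∀ᶠ y in 𝓝 z.1, ∀ hy : GCone.NV y, (∀ f : HM C, 0 < v f → y (f : C.R) = 0) →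
      (S.D ⟨y, hy⟩).Le v c) →
    ∀ d : ℕ, 0 < d → d ≤ n →
    (∃ m₁ ≥ 1, ∃ D' ≥ 1, TwoSided d D' (fun t => hilb C.A hv.rval.P (m₁ * t))) →
    ∀ m Em : ℕ, finrank ℂ (C.A m) ≤ Em →
    ∀ r₁ : ℕ, r₁₀ ≤ r₁ →
    ∃ (b : Basis (Fin (finrank ℂ (C.A m))) ℂ (C.A m)) (e : Fin (finrank ℂ (C.A m)) → ℕ) (α₁ : ℝ),
      0 < α₁ ∧ (hv.rval.wt (C.A m)).Adapted b ∧ (∀ i, e i ≤ Em) ∧
      (∀ α, α₁ ≤ α → Antitone fun i => α * hv.ext (b i) + e i) ∧
      (∀ α, α₁ ≤ α → VSl (S.E.P z) (C.A m).subtype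
        (ofBasis b fun i => α * hv.ext (b i) + e i).w (α * c + d)) ∧
      (∀ α, α₁ ≤ α → Dom (S.E.Hz z (C.A m)) (ofBasis b fun i => α * hv.ext (b i) + e i) ∧
        S.E.a z (C.A m) (ofBasis b fun i => α * hv.ext (b i) + e i) ≤ α * c + d) ∧
      ∀ (t : ℝ) (r₀ j : ℕ), j * (r₀ + r₁) ≤ m →
        (d : ℝ) * ((d.factorial : ℝ) ^ ((1 : ℝ) / d)) *
          ((hilb C.A hv.rval.P r₀ : ℝ) ^ ((1 : ℝ) / d)) *
          ∑ i ∈ range j, codim C.A hv.rval t (m - (i + 1) * (r₀ + r₁)) -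
          (d + 1) * codim C.A hv.rval t m ≤
        ∑ i, if hv.ext (b i) < t then (e i : ℝ) else 0 := by
  classical
  obtain ⟨r₁₀, hr⟩ := exists_genPt C n
  refine ⟨r₁₀, fun z v hv c hz0 hcen d hd hdn hgr m Em hE r₁ hr₁ => ?_⟩
  have hzP : hv.rval.P ≤ RingHom.ker z.1 := P_le_ker hv hz0
  let s : Finset ℝ := (Finset.range (m + 1)).biUnion
    fun M => (hv.rval.wt (C.A M)).finite_values.toFinset
  have hs : ∀ M ≤ m, ∀ x ∈ C.A M, x ≠ 0 → hv.ext x ∈ (s : Set ℝ) := by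
    intro M hM x hx hx0
    rw [Finset.mem_coe, Finset.mem_biUnion]
    refine ⟨M, Finset.mem_range.2 (by omega), ?_⟩
    rw [Set.Finite.mem_toFinset]
    exact ⟨⟨x, hx⟩, fun h0 => hx0 (congrArg Subtype.val h0), rfl⟩
  have hgen := hr (vR v) hv z.1 z.2 hzP d hdn hgr s r₁ hr₁
  exact out S.E S.ev_eq z.2 hv hzP (by
    filter_upwards [hcen] with y hy hyN hyP
    exact slopeLe_of_le (S.P_eq ⟨y, hyN⟩) hv (hy hyN fun f hf => hyP ((mem_P_coe hv f).2 hf)))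
    hd hE hs hgen

/-- **K3OUT**, for a saturated weight function, CEN being deduced from `GlobGen`. -/
theorem k3out_glob (hG : GlobGen) (hn : 1 ≤ n) (S : CSys C) :
    ∃ r₁₀ : ℕ, ∀ (z : NVPt C) (v : HM C → ℝ) (c : ℝ), (S.D z).Sat v c →
    ∀ hv : HVal C.A (vR v), (∀ f : HM C, z.1 (f : C.R) ≠ 0 → v f = 0) →
    ∀ d : ℕ, 0 < d → d ≤ n →
    (∃ m₁ ≥ 1, ∃ D' ≥ 1, TwoSided d D' (fun t => hilb C.A hv.rval.P (m₁ * t))) →
    ∀ m Em : ℕ, finrank ℂ (C.A m) ≤ Em →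
    ∀ r₁ : ℕ, r₁₀ ≤ r₁ →
    ∃ (b : Basis (Fin (finrank ℂ (C.A m))) ℂ (C.A m)) (e : Fin (finrank ℂ (C.A m)) → ℕ) (α₁ : ℝ),
      0 < α₁ ∧ (hv.rval.wt (C.A m)).Adapted b ∧ (∀ i, e i ≤ Em) ∧
      (∀ α, α₁ ≤ α → Antitone fun i => α * hv.ext (b i) + e i) ∧
      (∀ α, α₁ ≤ α → VSl (S.E.P z) (C.A m).subtype
        (ofBasis b fun i => α * hv.ext (b i) + e i).w (α * c + d)) ∧
      (∀ α, α₁ ≤ α → Dom (S.E.Hz z (C.A m)) (ofBasis b fun i => α * hv.ext (b i) + e i) ∧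
        S.E.a z (C.A m) (ofBasis b fun i => α * hv.ext (b i) + e i) ≤ α * c + d) ∧
      ∀ (t : ℝ) (r₀ j : ℕ), j * (r₀ + r₁) ≤ m →
        (d : ℝ) * ((d.factorial : ℝ) ^ ((1 : ℝ) / d)) *
          ((hilb C.A hv.rval.P r₀ : ℝ) ^ ((1 : ℝ) / d)) *
          ∑ i ∈ range j, codim C.A hv.rval t (m - (i + 1) * (r₀ + r₁)) -
          (d + 1) * codim C.A hv.rval t m ≤
        ∑ i, if hv.ext (b i) < t then (e i : ℝ) else 0 := by
  obtain ⟨r₁₀, hr⟩ := k3out S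
  refine ⟨r₁₀, fun z v c hsat hv hz0 => hr z v hv c hz0 ?_⟩
  obtain ⟨ch⟩ := nonempty_chart z.2
  filter_upwards [H244.cen_cone hG hn z.2 ch (S.P_ES z) hsat] with y hy hyN hyv k hk hk0
  rw [S.P_ES ⟨y, hyN⟩] at hk
  exact hy hyv k hk hk0

end Vale.Agent.P271.K3
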