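import Vale.Agent.P271.Inst.GChart
import Vale.Agent.P271.H26.Dens

/-!
# P271 / K3OUT : general points of a prime near a point of its zero set (helper231)
-/

namespace Vale.Agent.P271.K3

open Filter Topology Vale.Agent.P271.Inst Vale.Agent.P271.Sch

/-- **General points.** `P` a prime ideal of a finitely generated algebra, `z` a zero of `P`,
`h₀ ∉ P`, `Q` a property that holds at all points near `z`: there is a sequence of zeros `x k` of
`P` which converges to `z`, with `x k h₀ ≠ 0` and `Q (x k)`. -/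
theorem exists_seq_general {R : Type} [CommRing R] [Algebra ℂ R] [Algebra.FiniteType ℂ R]
    {z : R →ₐ[ℂ] ℂ} {P : Ideal R} [P.IsPrime] (hP : ∀ f ∈ P, z f = 0) {h₀ : R} (hh : h₀ ∉ P)
    {Q : (R →ₐ[ℂ] ℂ) → Prop} (hQ : ∀ᶠ χ in 𝓝 z, Q χ) :
    ∃ x : ℕ → (R →ₐ[ℂ] ℂ), Tendsto x atTop (𝓝 z) ∧
      ∀ k, (∀ f ∈ P, x k f = 0) ∧ x k h₀ ≠ 0 ∧ Q (x k) := by
  obtain ⟨ψ, h1, h2⟩ := H26.dens_seq (Ideal.Quotient.liftₐ P z hP) (Ideal.Quotient.mk P h₀)
    (fun h => hh (Ideal.Quotient.eq_zero_iff_mem.1 h))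
  let y : ℕ → (R →ₐ[ℂ] ℂ) := fun k => (ψ k).comp (Ideal.Quotient.mkₐ ℂ P)
  have hy : Tendsto y atTop (𝓝 z) := by
    rw [tendsto_iff]
    intro f
    have h3 := h2 (Ideal.Quotient.mk P f)
    exact h3
  obtain ⟨N, hN⟩ := eventually_atTop.1 (hy.eventually hQ)
  refine ⟨fun k => y (k + N), (tendsto_add_atTop_iff_nat N).2 hy, fun k => ⟨fun f hf => ?_, ?_, ?_⟩⟩
  · show ψ (k + N) (Ideal.Quotient.mk P f) = 0
    rw [Ideal.Quotient.eq_zero_iff_mem.2 hf, map_zero]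
  · exact h1 (k + N)
  · exact hN _ (Nat.le_add_left _ _)

variable {n : ℕ} {C : GCone n}

/-- General points of a prime of a cone, near a point `z` different from the vertex. -/
theorem exists_seq_cone {z : C.Pt} (hz : GCone.NV z) {P : Ideal C.R} [P.IsPrime]
    (hP : P ≤ RingHom.ker z) {h₀ : C.R} (hh : h₀ ∉ P) {Q : C.Pt → Prop}
    (hQ : ∀ᶠ χ in 𝓝 z, Q χ) :
    ∃ x : ℕ → C.Pt, Tendsto x atTop (𝓝 z) ∧
      ∀ k, P ≤ RingHom.ker (x k) ∧ x k h₀ ≠ 0 ∧ GCone.NV (x k) ∧ Q (x k) := by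
  have := C.finiteType
  obtain ⟨x, hx, h⟩ := exists_seq_general (P := P) (z := z) (fun f hf => hP hf) hh
    ((eventually_NV hz).and hQ)
  exact ⟨x, hx, fun k => ⟨fun f hf => (h k).1 f hf, (h k).2.1, (h k).2.2.1, (h k).2.2.2⟩⟩

end Vale.Agent.P271.K3
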